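import Vale.Agent.P042.H947.CubeE
import Vale.Agent.P042.H201.Inj1

/-!
# P042, H2.3 = (T3): THE CUBE THEOREM, over any finite index type
-/

set_option autoImplicit false

namespace Vale.Agent.P042.H947

open Finset

lemma sqrt_pow' {x : ℝ} (hx : 0 ≤ x) (k : ℕ) : Real.sqrt (x ^ k) = Real.sqrt x ^ k := by
  induction k with
  | zero => simp
  | succ k ih => rw [pow_succ, pow_succ, Real.sqrt_mul (pow_nonneg hx k), ih]

/-- (T3) on `Fin N → Bool` -/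
theorem cube_fin' {N : ℕ} (c : Finset (Fin N) → ℝ) {n : ℕ} (hc : ∀ F, F.card ≠ n → c F = 0)
    {Q : ℕ} (hQ : Even Q) (hQ2 : 2 ≤ Q) {L : ℝ} (hL0 : 0 ≤ L) (hL : (N : ℝ) ≤ Real.exp L)
    {X2 : ℝ} (hX0 : 0 ≤ X2) (hX : ∑ F, c F ^ 2 ≤ X2 ^ 2) {J : ℝ}
    (hJ : ∀ y : Fin N → ℂ, ∑ i, ‖y i‖ ^ 2 ≤ 1 → ‖∑ F, (c F : ℂ) * ∏ i ∈ F, y i‖ ≤ J)
    {Lam : ℝ} (hLam : 4 * Q * n * L + 16 * n ≤ Lam) :
    av (fun s => yc c s ^ Q) ≤
      (∑ m ∈ range (n + 1), min (Real.sqrt (n.choose m) * Real.sqrt Lam ^ (n - m) * X2)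
        (J * 2 ^ n * (2 * Real.sqrt N) ^ m * Real.sqrt Lam ^ (n - m))) ^ Q := by
  have hJ0 : 0 ≤ J := (norm_nonneg _).trans (hJ (fun _ => 0) (by simp))
  have hLam0 : 0 ≤ Lam := le_trans (by positivity) hLam
  have h := cube_fin c hc hQ hQ2 hL0 hL hX0 hX hJ0
    (fun m hm v u => H201.pathwise c n hc J hJ v u m hm) hLam
  simp only [sqrt_pow' hLam0] at h
  exact h

variable {Om : Type*} [Fintype Om] [DecidableEq Om]

/-- **(T3), THE CUBE THEOREM**: a homogeneous polynomial of degree `n` in independent signs;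
`X2` bounds the Hilbert-Schmidt norm of the coefficients, `J` the injective norm -/
theorem cube_bound (c : Finset Om → ℝ) {n : ℕ} (hc : ∀ F, F.card ≠ n → c F = 0)
    {Q : ℕ} (hQ : Even Q) (hQ2 : 2 ≤ Q) {L : ℝ} (hL0 : 0 ≤ L)
    (hL : (Fintype.card Om : ℝ) ≤ Real.exp L)
    {X2 : ℝ} (hX0 : 0 ≤ X2) (hX : ∑ F, c F ^ 2 ≤ X2 ^ 2) {J : ℝ}
    (hJ : ∀ y : Om → ℂ, ∑ i, ‖y i‖ ^ 2 ≤ 1 → ‖∑ F, (c F : ℂ) * ∏ i ∈ F, y i‖ ≤ J)
    {Lam : ℝ} (hLam : 4 * Q * n * L + 16 * n ≤ Lam) :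
    (1 / 2 : ℝ) ^ Fintype.card Om * ∑ e : Om → Bool, (∑ F, c F * ∏ p ∈ F, sg (e p)) ^ Q ≤
      (∑ m ∈ range (n + 1), min (Real.sqrt (n.choose m) * Real.sqrt Lam ^ (n - m) * X2)
        (J * 2 ^ n * (2 * Real.sqrt (Fintype.card Om)) ^ m * Real.sqrt Lam ^ (n - m))) ^ Q := by
  set N := Fintype.card Om with hN
  let e : Om ≃ Fin N := Fintype.equivFin Om
  let E : Finset (Fin N) ≃ Finset Om := e.symm.finsetCongr
  set c' : Finset (Fin N) → ℝ := fun F => c (E F) with hc'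
  have hprod : ∀ {R : Type} [CommMonoid R] (F : Finset (Fin N)) (f : Om → R),
      ∏ p ∈ E F, f p = ∏ i ∈ F, f (e.symm i) := by
    intro R _ F f
    show ∏ p ∈ F.map e.symm.toEmbedding, f p = _
    rw [prod_map]
    rfl
  have hcard : ∀ F, (E F).card = F.card := fun F => card_map _
  have h1 := cube_fin' c' (n := n) (fun F hF => hc _ (by rw [hcard]; exact hF)) hQ hQ2 hL0 hL
    hX0 (X2 := X2) (by
      have : ∑ F, c' F ^ 2 = ∑ F, c F ^ 2 := Equiv.sum_comp E (fun F => c F ^ 2)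
      rw [this]; exact hX) (J := J) (by
      intro y hy
      have h2 : ∑ F, (c' F : ℂ) * ∏ i ∈ F, y i = ∑ F, (c F : ℂ) * ∏ p ∈ F, y (e p) := by
        rw [← Equiv.sum_comp E (fun F => (c F : ℂ) * ∏ p ∈ F, y (e p))]
        refine sum_congr rfl fun F _ => ?_
        rw [hprod F (fun p => y (e p))]
        simp [hc']
      rw [h2]
      apply hJ
      have h3 : ∑ i, ‖y (e i)‖ ^ 2 = ∑ i, ‖y i‖ ^ 2 := Equiv.sum_comp e (fun i => ‖y i‖ ^ 2)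
      rw [h3]; exact hy) hLam
  refine le_trans (le_of_eq ?_) h1
  unfold av
  rw [one_div, inv_pow, div_eq_inv_mul]
  congr 1
  have h4 : ∀ s : Fin N → Bool, yc c' s = ∑ F, c F * ∏ p ∈ F, sg (s (e p)) := by
    intro s
    unfold yc
    rw [← Equiv.sum_comp E (fun F => c F * ∏ p ∈ F, sg (s (e p)))]
    refine sum_congr rfl fun F _ => ?_
    rw [hprod F (fun p => sg (s (e p)))]
    simp [hc']
  simp only [h4]
  exact (Equiv.sum_comp (e.arrowCongr (Equiv.refl Bool)).symm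
    (fun t : Om → Bool => (∑ F, c F * ∏ p ∈ F, sg (t p)) ^ Q)).symm

end Vale.Agent.P042.H947
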