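import Mathlib

/-!
# P042, H2.3 (cube theorem), part A: revealing the signs one by one

A density on the cube is a product of factors `1 + h_i ε_i` with predictable `h_i`.
-/

set_option autoImplicit false

namespace Vale.Agent.P042.H947

open Finset

/-- the sign of a bit -/
def sg (b : Bool) : ℝ := if b then 1 else -1

@[simp] lemma sg_true : sg true = 1 := by simp [sg]
@[simp] lemma sg_false : sg false = -1 := by simp [sg]

lemma sg_sq (b : Bool) : sg b ^ 2 = 1 := by cases b <;> simp

lemma abs_sg (b : Bool) : |sg b| = 1 := by cases b <;> simp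

variable {N : ℕ}

/-- uniform average on the cube -/
noncomputable def av (F : (Fin N → Bool) → ℝ) : ℝ := (∑ s, F s) / 2 ^ N

/-- flipping one coordinate -/
def flp (k : Fin N) (s : Fin N → Bool) : Fin N → Bool := Function.update s k (!(s k))

lemma flp_flp (k : Fin N) (s : Fin N → Bool) : flp k (flp k s) = s := by
  funext i
  by_cases h : i = k
  · subst h; simp [flp]
  · simp [flp, h]

lemma flp_ne {k i : Fin N} (h : i ≠ k) (s : Fin N → Bool) : flp k s i = s i := by
  simp [flp, h]

lemma flp_self (k : Fin N) (s : Fin N → Bool) : flp k s k = !(s k) := by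
  simp [flp]

lemma sum_flp (k : Fin N) (F : (Fin N → Bool) → ℝ) : ∑ s, F (flp k s) = ∑ s, F s := by
  have h : Function.Involutive (flp k) := flp_flp k
  exact Equiv.sum_comp h.toPerm F

lemma av_flp (k : Fin N) (F : (Fin N → Bool) → ℝ) : av (fun s => F (flp k s)) = av F := by
  unfold av; rw [sum_flp]

lemma av_add (F G : (Fin N → Bool) → ℝ) : av (fun s => F s + G s) = av F + av G := by
  unfold av; rw [sum_add_distrib, add_div]

lemma av_sub (F G : (Fin N → Bool) → ℝ) : av (fun s => F s - G s) = av F - av G := by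
  unfold av; rw [sum_sub_distrib, sub_div]

lemma av_mul_left (c : ℝ) (F : (Fin N → Bool) → ℝ) : av (fun s => c * F s) = c * av F := by
  unfold av; rw [← mul_sum, mul_div_assoc]

lemma av_mul_right (c : ℝ) (F : (Fin N → Bool) → ℝ) : av (fun s => F s * c) = av F * c := by
  unfold av; rw [← sum_mul]; ring

lemma av_mono {F G : (Fin N → Bool) → ℝ} (h : ∀ s, F s ≤ G s) : av F ≤ av G := by
  unfold av
  gcongr with s
  exact h s

lemma av_nonneg {F : (Fin N → Bool) → ℝ} (h : ∀ s, 0 ≤ F s) : 0 ≤ av F := by
  unfold av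
  exact div_nonneg (sum_nonneg fun s _ => h s) (by positivity)

lemma av_const (c : ℝ) : av (fun _ : Fin N → Bool => c) = c := by
  unfold av
  simp

lemma av_sum {α : Type*} (S : Finset α) (F : α → (Fin N → Bool) → ℝ) :
    av (fun s => ∑ a ∈ S, F a s) = ∑ a ∈ S, av (F a) := by
  unfold av
  rw [sum_comm, sum_div]

/-- averaging out one coordinate -/
lemma av_cond (k : Fin N) (G : (Fin N → Bool) → Bool → ℝ)
    (hG : ∀ s b, G (flp k s) b = G s b) :
    av (fun s => G s (s k)) = av (fun s => (G s true + G s false) / 2) := by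
  have h1 : av (fun s => G s (s k)) = av (fun s => G (flp k s) ((flp k s) k)) :=
    (av_flp k (fun s => G s (s k))).symm
  have h2 : av (fun s => G s (s k)) + av (fun s => G s (s k)) =
      av (fun s => G s true + G s false) := by
    nth_rw 2 [h1]
    rw [← av_add]
    congr 1
    funext s
    rw [hG, flp_self]
    cases s k <;> simp [add_comm]
  have h3 : av (fun s => (G s true + G s false) / 2) =
      av (fun s => G s true + G s false) / 2 := by
    simp only [div_eq_mul_inv]
    rw [av_mul_right]
  rw [h3, ← h2]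
  ring

/-- `F` depends on the first `k` coordinates only -/
def Pre (k : ℕ) (F : (Fin N → Bool) → ℝ) : Prop :=
  ∀ s t : Fin N → Bool, (∀ i : Fin N, i.val < k → s i = t i) → F s = F t

lemma Pre.mono {k l : ℕ} (hkl : k ≤ l) {F : (Fin N → Bool) → ℝ} (h : Pre k F) : Pre l F :=
  fun s t hst => h s t fun i hi => hst i (lt_of_lt_of_le hi hkl)

lemma Pre.mul {k : ℕ} {F G : (Fin N → Bool) → ℝ} (hF : Pre k F) (hG : Pre k G) :
    Pre k (fun s => F s * G s) := fun s t h => by
  show F s * G s = F t * G t
  rw [hF s t h, hG s t h]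

lemma Pre.add {k : ℕ} {F G : (Fin N → Bool) → ℝ} (hF : Pre k F) (hG : Pre k G) :
    Pre k (fun s => F s + G s) := fun s t h => by
  show F s + G s = F t + G t
  rw [hF s t h, hG s t h]

lemma Pre.flp {k : Fin N} {F : (Fin N → Bool) → ℝ} (h : Pre k.val F) (s : Fin N → Bool) :
    F (flp k s) = F s := by
  apply h
  intro i hi
  exact flp_ne (fun h => by subst h; exact lt_irrefl _ hi) s

lemma Pre.sum {k : ℕ} {α : Type*} (S : Finset α) {F : α → (Fin N → Bool) → ℝ}
    (hF : ∀ a ∈ S, Pre k (F a)) : Pre k (fun s => ∑ a ∈ S, F a s) := fun s t h => by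
  show ∑ a ∈ S, F a s = ∑ a ∈ S, F a t
  exact sum_congr rfl fun a ha => hF a ha s t h

lemma Pre.prod {k : ℕ} {α : Type*} (S : Finset α) {F : α → (Fin N → Bool) → ℝ}
    (hF : ∀ a ∈ S, Pre k (F a)) : Pre k (fun s => ∏ a ∈ S, F a s) := fun s t h => by
  show ∏ a ∈ S, F a s = ∏ a ∈ S, F a t
  exact prod_congr rfl fun a ha => hF a ha s t h

/-- the partial products -/
def pk (h : Fin N → (Fin N → Bool) → ℝ) (k : ℕ) (s : Fin N → Bool) : ℝ :=
  ∏ i : Fin N, if i.val < k then 1 + h i s * sg (s i) else 1

lemma pk_zero (h : Fin N → (Fin N → Bool) → ℝ) (s : Fin N → Bool) : pk h 0 s = 1 := by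
  simp [pk]

lemma pk_succ (h : Fin N → (Fin N → Bool) → ℝ) {k : ℕ} (hk : k < N) (s : Fin N → Bool) :
    pk h (k + 1) s = pk h k s * (1 + h ⟨k, hk⟩ s * sg (s ⟨k, hk⟩)) := by
  unfold pk
  have h1 : (∏ i : Fin N, if i.val < k then 1 + h i s * sg (s i) else 1) *
      (1 + h ⟨k, hk⟩ s * sg (s ⟨k, hk⟩)) =
      ∏ i : Fin N, (if i.val < k then 1 + h i s * sg (s i) else 1) *
        (if i = ⟨k, hk⟩ then 1 + h i s * sg (s i) else 1) := by
    rw [prod_mul_distrib]
    congr 1
    simp
  rw [h1]
  refine prod_congr rfl fun i _ => ?_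
  by_cases h2 : i = ⟨k, hk⟩
  · subst h2
    simp
  · have h3 : i.val ≠ k := fun h => h2 (Fin.ext h)
    by_cases h4 : i.val < k
    · simp [h4, h2, Nat.lt_succ_of_lt h4]
    · have : ¬ i.val < k + 1 := by omega
      simp [h4, h2, this]

/-- predictable bounded sequence -/
structure Prd (h : Fin N → (Fin N → Bool) → ℝ) : Prop where
  pre : ∀ i, Pre i.val (h i)
  bd : ∀ i s, |h i s| ≤ 1

lemma pk_nonneg {h : Fin N → (Fin N → Bool) → ℝ} (hh : Prd h) (k : ℕ) (s : Fin N → Bool) :
    0 ≤ pk h k s := by
  unfold pk
  refine prod_nonneg fun i _ => ?_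
  split_ifs
  · have h1 := hh.bd i s
    have h2 : |h i s * sg (s i)| ≤ 1 := by rw [abs_mul, abs_sg, mul_one]; exact h1
    have := (abs_le.mp h2).1
    linarith
  · exact zero_le_one

lemma pre_sg {k : Fin N} : Pre (k.val + 1) (fun s => sg (s k)) := fun s t h => by
  show sg (s k) = sg (t k)
  rw [h k (Nat.lt_succ_self _)]

lemma pre_pk {h : Fin N → (Fin N → Bool) → ℝ} (hh : Prd h) (k : ℕ) : Pre k (pk h k) := by
  intro s t hst
  unfold pk
  refine prod_congr rfl fun i _ => ?_
  split_ifs with hi
  · rw [hst i hi, hh.pre i s t fun j hj => hst j (lt_trans hj hi)]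
  · rfl

/-- the expectation with respect to the law with density `∏ (1 + h_i ε_i)` -/
noncomputable def er (h : Fin N → (Fin N → Bool) → ℝ) (F : (Fin N → Bool) → ℝ) : ℝ :=
  av (fun s => pk h N s * F s)

lemma er_pre_aux {h : Fin N → (Fin N → Bool) → ℝ} (hh : Prd h) {k : ℕ} (hk : k < N)
    {F : (Fin N → Bool) → ℝ} (hF : Pre k F) :
    av (fun s => pk h (k + 1) s * F s) = av (fun s => pk h k s * F s) := by
  have h1 := av_cond ⟨k, hk⟩ (fun s b => pk h k s * (1 + h ⟨k, hk⟩ s * sg b) * F s) (by
    intro s b
    have e1 := Pre.flp (k := ⟨k, hk⟩) (pre_pk hh k) s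
    have e2 := Pre.flp (k := ⟨k, hk⟩) (hh.pre ⟨k, hk⟩) s
    have e3 := Pre.flp (k := ⟨k, hk⟩) hF s
    simp only [e1, e2, e3])
  have h2 : av (fun s => pk h (k + 1) s * F s) =
      av (fun s => pk h k s * (1 + h ⟨k, hk⟩ s * sg (s ⟨k, hk⟩)) * F s) := by
    congr 1
    funext s
    rw [pk_succ h hk]
  rw [h2, h1]
  congr 1
  funext s
  simp only [sg_true, sg_false]
  ring

lemma er_pre {h : Fin N → (Fin N → Bool) → ℝ} (hh : Prd h) {k : ℕ} (hk : k ≤ N)
    {F : (Fin N → Bool) → ℝ} (hF : Pre k F) :
    er h F = av (fun s => pk h k s * F s) := by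
  unfold er
  have key : ∀ j, k + j ≤ N → av (fun s => pk h (k + j) s * F s) =
      av (fun s => pk h k s * F s) := by
    intro j
    induction j with
    | zero => intro _; rfl
    | succ j ih =>
      intro hj
      have h1 : k + j < N := by omega
      rw [← ih (by omega)]
      exact er_pre_aux hh h1 (hF.mono (Nat.le_add_right k j))
  have h2 := key (N - k) (by omega)
  rw [show k + (N - k) = N by omega] at h2
  exact h2

lemma er_mart {h : Fin N → (Fin N → Bool) → ℝ} (hh : Prd h) (k : Fin N)
    {F : (Fin N → Bool) → ℝ} (hF : Pre k.val F) :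
    er h (fun s => F s * (sg (s k) - h k s)) = 0 := by
  have hP : Pre (k.val + 1) (fun s => F s * (sg (s k) - h k s)) := by
    intro s t hst
    show F s * (sg (s k) - h k s) = F t * (sg (t k) - h k t)
    rw [hF s t fun i hi => hst i (by omega), hst k (Nat.lt_succ_self _),
      hh.pre k s t fun i hi => hst i (by omega)]
  rw [er_pre hh (Nat.succ_le_of_lt k.isLt) hP]
  have h2 : av (fun s => pk h (k.val + 1) s * (F s * (sg (s k) - h k s))) =
      av (fun s => pk h k.val s * (1 + h k s * sg (s k)) * (F s * (sg (s k) - h k s))) := by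
    congr 1
    funext s
    rw [pk_succ h k.isLt]
  rw [h2, av_cond k (fun s b => pk h k.val s * (1 + h k s * sg b) * (F s * (sg b - h k s))) (by
    intro s b
    have e1 := Pre.flp (k := k) (pre_pk hh k.val) s
    have e2 := Pre.flp (k := k) (hh.pre k) s
    have e3 := Pre.flp (k := k) hF s
    simp only [e1, e2, e3])]
  have h3 : (fun s => (pk h k.val s * (1 + h k s * sg true) * (F s * (sg true - h k s)) +
      pk h k.val s * (1 + h k s * sg false) * (F s * (sg false - h k s))) / 2) =
      fun _ => (0 : ℝ) := by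
    funext s
    simp only [sg_true, sg_false]
    ring
  rw [h3, av_const]

lemma er_var {h : Fin N → (Fin N → Bool) → ℝ} (hh : Prd h) (k : Fin N)
    {F : (Fin N → Bool) → ℝ} (hF : Pre k.val F) (hF0 : ∀ s, 0 ≤ F s) :
    er h (fun s => F s * (sg (s k) - h k s) ^ 2) ≤ er h F := by
  have hP : Pre (k.val + 1) (fun s => F s * (sg (s k) - h k s) ^ 2) := by
    intro s t hst
    show F s * (sg (s k) - h k s) ^ 2 = F t * (sg (t k) - h k t) ^ 2
    rw [hF s t fun i hi => hst i (by omega), hst k (Nat.lt_succ_self _),
      hh.pre k s t fun i hi => hst i (by omega)]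
  rw [er_pre hh (Nat.succ_le_of_lt k.isLt) hP, er_pre hh k.isLt.le hF]
  have h2 : av (fun s => pk h (k.val + 1) s * (F s * (sg (s k) - h k s) ^ 2)) =
      av (fun s => pk h k.val s * (1 + h k s * sg (s k)) *
        (F s * (sg (s k) - h k s) ^ 2)) := by
    congr 1
    funext s
    rw [pk_succ h k.isLt]
  rw [h2, av_cond k (fun s b => pk h k.val s * (1 + h k s * sg b) *
    (F s * (sg b - h k s) ^ 2)) (by
    intro s b
    have e1 := Pre.flp (k := k) (pre_pk hh k.val) s
    have e2 := Pre.flp (k := k) (hh.pre k) s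
    have e3 := Pre.flp (k := k) hF s
    simp only [e1, e2, e3])]
  apply av_mono
  intro s
  simp only [sg_true, sg_false]
  have e : (pk h k.val s * (1 + h k s * 1) * (F s * (1 - h k s) ^ 2) +
      pk h k.val s * (1 + h k s * -1) * (F s * (-1 - h k s) ^ 2)) / 2 =
      pk h k.val s * F s * (1 - h k s ^ 2) := by ring
  rw [e]
  have h0 : 0 ≤ pk h k.val s * F s := mul_nonneg (pk_nonneg hh _ _) (hF0 s)
  nlinarith [sq_nonneg (h k s)]

/-! ### every density is such a product -/

/-- the first `k` coordinates from `s`, the others from `t` -/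
def mix (k : ℕ) (s t : Fin N → Bool) : Fin N → Bool := fun i => if i.val < k then s i else t i

/-- conditional density -/
noncomputable def cd (r : (Fin N → Bool) → ℝ) (k : ℕ) (s : Fin N → Bool) : ℝ :=
  av (fun t => r (mix k s t))

lemma cd_zero (r : (Fin N → Bool) → ℝ) (s : Fin N → Bool) : cd r 0 s = av r := by
  unfold cd mix
  simp

lemma cd_top (r : (Fin N → Bool) → ℝ) (s : Fin N → Bool) : cd r N s = r s := by
  unfold cd
  have : (fun t => r (mix N s t)) = fun _ => r s := by
    funext t
    congr 1
    funext i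
    simp [mix]
  rw [this, av_const]

lemma pre_cd (r : (Fin N → Bool) → ℝ) (k : ℕ) : Pre k (cd r k) := by
  intro s t hst
  unfold cd
  congr 1
  funext u
  congr 1
  funext i
  unfold mix
  split_ifs with hi
  · exact hst i hi
  · rfl

lemma cd_step (r : (Fin N → Bool) → ℝ) (k : Fin N) (s : Fin N → Bool) :
    cd r k.val s = (cd r (k.val + 1) (Function.update s k true) +
      cd r (k.val + 1) (Function.update s k false)) / 2 := by
  have h1 : cd r k.val s = av (fun t => r (mix (k.val + 1) (Function.update s k (t k)) t)) := by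
    unfold cd
    congr 1
    funext t
    congr 1
    funext i
    unfold mix
    by_cases hik : i = k
    · subst hik
      simp
    · have h3 : i.val ≠ k.val := fun h => hik (Fin.ext h)
      by_cases h4 : i.val < k.val
      · simp [h4, hik, Nat.lt_succ_of_lt h4]
      · have : ¬ i.val < k.val + 1 := by omega
        simp [h4, this]
  rw [h1, av_cond k (fun t b => r (mix (k.val + 1) (Function.update s k b) t)) (by
    intro t b
    congr 1
    funext i
    unfold mix
    split_ifs with hi
    · rfl
    · exact flp_ne (fun h => by subst h; exact hi (Nat.lt_succ_self _)) t)]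
  have h2 : (fun t => (r (mix (k.val + 1) (Function.update s k true) t) +
      r (mix (k.val + 1) (Function.update s k false) t)) / 2) =
      fun t => (r (mix (k.val + 1) (Function.update s k true) t) +
      r (mix (k.val + 1) (Function.update s k false) t)) * (1 / 2) := by
    funext t; ring
  rw [h2, av_mul_right, av_add]
  unfold cd
  ring

theorem exists_prd (r : (Fin N → Bool) → ℝ) (hr : ∀ s, 0 ≤ r s) (hr1 : av r = 1) :
    ∃ h : Fin N → (Fin N → Bool) → ℝ, Prd h ∧ ∀ s, r s = pk h N s := by
  have hcd0 : ∀ k s, 0 ≤ cd r k s := fun k s => av_nonneg fun t => hr _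
  set T : Fin N → (Fin N → Bool) → ℝ := fun k s => cd r (k.val + 1) (Function.update s k true)
  set G : Fin N → (Fin N → Bool) → ℝ := fun k s => cd r (k.val + 1) (Function.update s k false)
  have hT : ∀ k s, 0 ≤ T k s := fun k s => hcd0 _ _
  have hG : ∀ k s, 0 ≤ G k s := fun k s => hcd0 _ _
  have hst : ∀ k : Fin N, ∀ s, cd r k.val s = (T k s + G k s) / 2 := fun k s => cd_step r k s
  refine ⟨fun k s => (T k s - G k s) / (2 * cd r k.val s), ⟨?_, ?_⟩, ?_⟩
  · intro i s t hst'
    have e : ∀ b, cd r (i.val + 1) (Function.update s i b) =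
        cd r (i.val + 1) (Function.update t i b) := by
      intro b
      apply pre_cd
      intro j hj
      by_cases hji : j = i
      · subst hji; simp
      · have : j.val < i.val := by
          have : j.val ≠ i.val := fun h => hji (Fin.ext h)
          omega
        simp [hji, hst' j this]
    show (T i s - G i s) / (2 * cd r i.val s) = (T i t - G i t) / (2 * cd r i.val t)
    rw [show T i s = T i t from e true, show G i s = G i t from e false,
      pre_cd r i.val s t hst']
  · intro i s
    show |(T i s - G i s) / (2 * cd r i.val s)| ≤ 1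
    rw [hst i s, show (2 : ℝ) * ((T i s + G i s) / 2) = T i s + G i s by ring]
    have h1 := hT i s
    have h2 := hG i s
    rcases eq_or_lt_of_le (add_nonneg h1 h2) with h3 | h3
    · rw [← h3]; simp
    · rw [abs_div, abs_of_pos h3, div_le_one h3, abs_le]
      constructor <;> linarith
  · intro s
    set h : Fin N → (Fin N → Bool) → ℝ := fun k s => (T k s - G k s) / (2 * cd r k.val s) with hh
    have key : ∀ k, k ≤ N → cd r k s = pk h k s := by
      intro k
      induction k with
      | zero => intro _; rw [cd_zero, pk_zero, hr1]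
      | succ k ih =>
        intro hk
        have hk' : k < N := hk
        rw [pk_succ h hk', ← ih hk'.le]
        have h1 := hst ⟨k, hk'⟩ s
        have h5 : cd r (k + 1) s = if s ⟨k, hk'⟩ then T ⟨k, hk'⟩ s else G ⟨k, hk'⟩ s := by
          cases hb : s ⟨k, hk'⟩
          · have : Function.update s ⟨k, hk'⟩ false = s := by
              rw [← hb]; exact Function.update_eq_self _ _
            simp only [G, this]
            simp
          · have : Function.update s ⟨k, hk'⟩ true = s := by
              rw [← hb]; exact Function.update_eq_self _ _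
            simp only [T, this]
            simp
        have h6 : h ⟨k, hk'⟩ s = (T ⟨k, hk'⟩ s - G ⟨k, hk'⟩ s) / (2 * cd r k s) := rfl
        simp only at h1
        rcases eq_or_ne (cd r k s) 0 with h0 | h0
        · have h2 := hT ⟨k, hk'⟩ s
          have h3 := hG ⟨k, hk'⟩ s
          rw [h0] at h1
          have hT0 : T ⟨k, hk'⟩ s = 0 := by linarith
          have hG0 : G ⟨k, hk'⟩ s = 0 := by linarith
          rw [h5, hT0, hG0, h0]
          simp
        · rw [h5, h6]
          cases hb : s ⟨k, hk'⟩
          · simp only [sg_false, Bool.false_eq_true, if_false]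
            field_simp
            linarith
          · simp only [sg_true, if_true]
            field_simp
            linarith
    rw [← key N le_rfl, cd_top]

end Vale.Agent.P042.H947
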