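import Vale.Agent.P042.H947.CubeA

/-!
# P042, H2.3 (cube theorem), part B: the drift

`E_ρ exp(∑ h²/8) ≤ e^{D/2}` and the moments of `∑ h²`.
-/

set_option autoImplicit false

namespace Vale.Agent.P042.H947

open Finset

variable {N : ℕ}

lemma sqrt_avg {x : ℝ} (hx : |x| ≤ 1) :
    (Real.sqrt (1 + x) + Real.sqrt (1 - x)) / 2 ≤ Real.exp (-(x ^ 2 / 8)) := by
  have hx1 := (abs_le.mp hx).1
  have hx2 := (abs_le.mp hx).2
  set a := Real.sqrt (1 + x)
  set b := Real.sqrt (1 - x)
  have ha : a ^ 2 = 1 + x := Real.sq_sqrt (by linarith)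
  have hb : b ^ 2 = 1 - x := Real.sq_sqrt (by linarith)
  have ha0 : 0 ≤ a := Real.sqrt_nonneg _
  have hb0 : 0 ≤ b := Real.sqrt_nonneg _
  have hx3 : x ^ 2 ≤ 1 := by nlinarith
  have hab2 : (a * b) ^ 2 = 1 - x ^ 2 := by rw [mul_pow, ha, hb]; ring
  have hab : a * b ≤ 1 - x ^ 2 / 2 := by
    by_contra hc
    push Not at hc
    have h1 : 0 ≤ 1 - x ^ 2 / 2 := by linarith
    have h2 : (1 - x ^ 2 / 2) ^ 2 < (a * b) ^ 2 := by
      apply pow_lt_pow_left₀ hc h1 two_ne_zero
    rw [hab2] at h2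
    nlinarith [sq_nonneg (x ^ 2)]
  have h3 : ((a + b) / 2) ^ 2 ≤ Real.exp (-(x ^ 2 / 8)) ^ 2 := by
    have e1 : ((a + b) / 2) ^ 2 = (1 + a * b) / 2 := by
      have : (a + b) ^ 2 = a ^ 2 + b ^ 2 + 2 * (a * b) := by ring
      rw [div_pow, this, ha, hb]; ring
    rw [e1, ← Real.exp_nat_mul]
    have h4 := Real.add_one_le_exp (((2 : ℕ) : ℝ) * -(x ^ 2 / 8))
    push_cast at h4 ⊢
    linarith
  exact le_of_sq_le_sq h3 (Real.exp_pos _).le
where
  le_of_sq_le_sq {u v : ℝ} (h : u ^ 2 ≤ v ^ 2) (hv : 0 ≤ v) : u ≤ v := by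
    by_contra hc
    push Not at hc
    have : v ^ 2 < u ^ 2 := pow_lt_pow_left₀ hc hv two_ne_zero
    linarith

/-- partial products of general factors -/
def qk (g : Fin N → (Fin N → Bool) → ℝ) (k : ℕ) (s : Fin N → Bool) : ℝ :=
  ∏ i : Fin N, if i.val < k then g i s else 1

lemma qk_zero (g : Fin N → (Fin N → Bool) → ℝ) (s : Fin N → Bool) : qk g 0 s = 1 := by
  simp [qk]

lemma qk_succ (g : Fin N → (Fin N → Bool) → ℝ) {k : ℕ} (hk : k < N) (s : Fin N → Bool) :
    qk g (k + 1) s = qk g k s * g ⟨k, hk⟩ s := by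
  unfold qk
  have h1 : (∏ i : Fin N, if i.val < k then g i s else 1) * g ⟨k, hk⟩ s =
      ∏ i : Fin N, (if i.val < k then g i s else 1) *
        (if i = ⟨k, hk⟩ then g i s else 1) := by
    rw [prod_mul_distrib]
    congr 1
    simp
  rw [h1]
  refine prod_congr rfl fun i _ => ?_
  by_cases h2 : i = ⟨k, hk⟩
  · subst h2
    simp
  · have h3 : i.val ≠ k := fun h => h2 (Fin.ext h)
    by_cases h4 : i.val < k
    · simp [h4, h2, Nat.lt_succ_of_lt h4]
    · have : ¬ i.val < k + 1 := by omega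
      simp [h4, h2, this]

lemma qk_top (g : Fin N → (Fin N → Bool) → ℝ) (s : Fin N → Bool) :
    qk g N s = ∏ i, g i s := by
  unfold qk
  refine prod_congr rfl fun i _ => ?_
  simp

lemma pk_top (h : Fin N → (Fin N → Bool) → ℝ) (s : Fin N → Bool) :
    pk h N s = ∏ i, (1 + h i s * sg (s i)) := by
  unfold pk
  refine prod_congr rfl fun i _ => ?_
  simp

/-- the sum of the squares of the drifts -/
def xs (h : Fin N → (Fin N → Bool) → ℝ) (s : Fin N → Bool) : ℝ := ∑ i, h i s ^ 2

lemma xs_nonneg (h : Fin N → (Fin N → Bool) → ℝ) (s : Fin N → Bool) : 0 ≤ xs h s :=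
  sum_nonneg fun _ _ => sq_nonneg _

lemma one_add_nonneg {h : Fin N → (Fin N → Bool) → ℝ} (hh : Prd h) (i : Fin N)
    (s : Fin N → Bool) (b : Bool) : 0 ≤ 1 + h i s * sg b := by
  have h1 := hh.bd i s
  have h2 : |h i s * sg b| ≤ 1 := by rw [abs_mul, abs_sg, mul_one]; exact h1
  have := (abs_le.mp h2).1
  linarith

lemma av_sqrt_le {h : Fin N → (Fin N → Bool) → ℝ} (hh : Prd h) :
    av (fun s => Real.sqrt (pk h N s) * Real.exp (xs h s / 8)) ≤ 1 := by
  set g : Fin N → (Fin N → Bool) → ℝ := fun i s =>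
    Real.sqrt (1 + h i s * sg (s i)) * Real.exp (h i s ^ 2 / 8) with hg
  have e1 : (fun s => Real.sqrt (pk h N s) * Real.exp (xs h s / 8)) = fun s => qk g N s := by
    funext s
    rw [qk_top, pk_top, hg]
    simp only
    rw [prod_mul_distrib, Real.sqrt_prod _ (fun i _ => one_add_nonneg hh i s (s i)),
      ← Real.exp_sum]
    congr 2
    unfold xs
    rw [sum_div]
  rw [e1]
  have key : ∀ k, k ≤ N → av (fun s => qk g k s) ≤ 1 := by
    intro k
    induction k with
    | zero => intro _; simp only [qk_zero]; rw [av_const]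
    | succ k ih =>
      intro hk
      have hk' : k < N := hk
      refine le_trans ?_ (ih hk'.le)
      have hpre : Pre k (qk g k) := by
        intro s t hst
        unfold qk
        refine prod_congr rfl fun i _ => ?_
        split_ifs with hi
        · rw [hg]
          simp only
          rw [hst i hi, hh.pre i s t fun j hj => hst j (lt_trans hj hi)]
        · rfl
      have e2 : (fun s => qk g (k + 1) s) = fun s => qk g k s *
          (Real.sqrt (1 + h ⟨k, hk'⟩ s * sg (s ⟨k, hk'⟩)) *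
            Real.exp (h ⟨k, hk'⟩ s ^ 2 / 8)) := by
        funext s
        rw [qk_succ g hk']
      rw [e2, av_cond ⟨k, hk'⟩ (fun s b => qk g k s *
          (Real.sqrt (1 + h ⟨k, hk'⟩ s * sg b) * Real.exp (h ⟨k, hk'⟩ s ^ 2 / 8))) (by
        intro s b
        have e1 := Pre.flp (k := ⟨k, hk'⟩) hpre s
        have e2 := Pre.flp (k := ⟨k, hk'⟩) (hh.pre ⟨k, hk'⟩) s
        simp only [e1, e2])]
      apply av_mono
      intro s
      simp only [sg_true, sg_false]
      set x := h ⟨k, hk'⟩ s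
      have hx : |x| ≤ 1 := hh.bd _ _
      have h1 := sqrt_avg hx
      have h2 : Real.exp (-(x ^ 2 / 8)) * Real.exp (x ^ 2 / 8) = 1 := by
        rw [← Real.exp_add]; simp
      have hq : 0 ≤ qk g k s := by
        unfold qk
        refine prod_nonneg fun i _ => ?_
        split_ifs
        · rw [hg]; simp only; positivity
        · exact zero_le_one
      have e3 : (qk g k s * (Real.sqrt (1 + x * 1) * Real.exp (x ^ 2 / 8)) +
          qk g k s * (Real.sqrt (1 + x * -1) * Real.exp (x ^ 2 / 8))) / 2 =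
          qk g k s * (((Real.sqrt (1 + x) + Real.sqrt (1 - x)) / 2) *
            Real.exp (x ^ 2 / 8)) := by
        rw [mul_one, show (1 : ℝ) + x * -1 = 1 - x by ring]
        ring
      rw [e3]
      have h3 : ((Real.sqrt (1 + x) + Real.sqrt (1 - x)) / 2) * Real.exp (x ^ 2 / 8) ≤ 1 := by
        calc _ ≤ Real.exp (-(x ^ 2 / 8)) * Real.exp (x ^ 2 / 8) :=
              mul_le_mul_of_nonneg_right h1 (Real.exp_pos _).le
          _ = 1 := h2
      calc _ ≤ qk g k s * 1 := mul_le_mul_of_nonneg_left h3 hq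
        _ = qk g k s := mul_one _
  exact key N le_rfl

theorem er_exp_le {h : Fin N → (Fin N → Bool) → ℝ} (hh : Prd h) {D : ℝ}
    (hD : ∀ s, pk h N s ≤ Real.exp D) :
    er h (fun s => Real.exp (xs h s / 8)) ≤ Real.exp (D / 2) := by
  have h1 : ∀ s, pk h N s * Real.exp (xs h s / 8) ≤
      Real.exp (D / 2) * (Real.sqrt (pk h N s) * Real.exp (xs h s / 8)) := by
    intro s
    have h0 := pk_nonneg hh N s
    have h2 : Real.sqrt (pk h N s) ≤ Real.exp (D / 2) := by
      rw [Real.sqrt_le_left (Real.exp_pos _).le, ← Real.exp_nat_mul]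
      push_cast
      rw [show (2 : ℝ) * (D / 2) = D by ring]
      exact hD s
    calc pk h N s * Real.exp (xs h s / 8) =
        (Real.sqrt (pk h N s) * Real.sqrt (pk h N s)) * Real.exp (xs h s / 8) := by
          rw [Real.mul_self_sqrt h0]
      _ ≤ (Real.exp (D / 2) * Real.sqrt (pk h N s)) * Real.exp (xs h s / 8) := by
          gcongr
      _ = _ := by ring
  unfold er
  calc _ ≤ av (fun s => Real.exp (D / 2) *
      (Real.sqrt (pk h N s) * Real.exp (xs h s / 8))) := av_mono h1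
    _ = Real.exp (D / 2) * av (fun s => Real.sqrt (pk h N s) * Real.exp (xs h s / 8)) :=
        av_mul_left _ _
    _ ≤ Real.exp (D / 2) * 1 := mul_le_mul_of_nonneg_left (av_sqrt_le hh) (Real.exp_pos _).le
    _ = _ := mul_one _

lemma er_mono {h : Fin N → (Fin N → Bool) → ℝ} (hh : Prd h) {F G : (Fin N → Bool) → ℝ}
    (hFG : ∀ s, F s ≤ G s) : er h F ≤ er h G := by
  unfold er
  exact av_mono fun s => mul_le_mul_of_nonneg_left (hFG s) (pk_nonneg hh N s)

lemma er_nonneg {h : Fin N → (Fin N → Bool) → ℝ} (hh : Prd h) {F : (Fin N → Bool) → ℝ}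
    (hF : ∀ s, 0 ≤ F s) : 0 ≤ er h F :=
  av_nonneg fun s => mul_nonneg (pk_nonneg hh N s) (hF s)

lemma er_add (h : Fin N → (Fin N → Bool) → ℝ) (F G : (Fin N → Bool) → ℝ) :
    er h (fun s => F s + G s) = er h F + er h G := by
  unfold er
  rw [← av_add]
  congr 1
  funext s
  ring

lemma er_mul_left (h : Fin N → (Fin N → Bool) → ℝ) (c : ℝ) (F : (Fin N → Bool) → ℝ) :
    er h (fun s => c * F s) = c * er h F := by
  unfold er
  rw [← av_mul_left]
  congr 1
  funext s
  ring

lemma er_sum (h : Fin N → (Fin N → Bool) → ℝ) {α : Type*} (S : Finset α)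
    (F : α → (Fin N → Bool) → ℝ) :
    er h (fun s => ∑ a ∈ S, F a s) = ∑ a ∈ S, er h (F a) := by
  unfold er
  simp only [mul_sum]
  exact av_sum S (fun a s => pk h N s * F a s)

lemma er_const {h : Fin N → (Fin N → Bool) → ℝ} (hh : Prd h) (c : ℝ) :
    er h (fun _ => c) = c := by
  rw [er_pre hh (Nat.zero_le N) (F := fun _ => c) (fun s t _ => rfl)]
  simp only [pk_zero, one_mul]
  exact av_const c

lemma pow_le_aux {y a : ℝ} (hy : 0 ≤ y) (ha : 0 < a) {j : ℕ} (hj : (j : ℝ) ≤ a) :
    y ^ j ≤ a ^ j * (1 + Real.exp (y - a)) := by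
  rcases le_or_gt y a with h | h
  · have h1 : y ^ j ≤ a ^ j := pow_le_pow_left₀ hy h j
    have h2 : 0 ≤ a ^ j * Real.exp (y - a) := by positivity
    nlinarith
  · have h1 : y / a ≤ Real.exp (y / a - 1) := by
      have := Real.add_one_le_exp (y / a - 1)
      linarith
    have h2 : (y / a) ^ j ≤ Real.exp (y - a) := by
      calc (y / a) ^ j ≤ Real.exp (y / a - 1) ^ j := pow_le_pow_left₀ (by positivity) h1 j
        _ = Real.exp (j * (y / a - 1)) := by rw [← Real.exp_nat_mul]
        _ ≤ Real.exp (y - a) := by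
          apply Real.exp_le_exp.mpr
          have h3 : 0 ≤ y / a - 1 := by
            rw [sub_nonneg, le_div_iff₀ ha]; linarith
          calc (j : ℝ) * (y / a - 1) ≤ a * (y / a - 1) := mul_le_mul_of_nonneg_right hj h3
            _ = y - a := by field_simp
    have h3 : y ^ j = a ^ j * (y / a) ^ j := by
      rw [← mul_pow]; congr 1; field_simp
    rw [h3]
    have h4 : 0 ≤ a ^ j := by positivity
    nlinarith

theorem er_pow_le {h : Fin N → (Fin N → Bool) → ℝ} (hh : Prd h) {D : ℝ} (hD0 : 0 ≤ D)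
    (hD : ∀ s, pk h N s ≤ Real.exp D) (j : ℕ) {Lam : ℝ} (hLam : 8 * D + 16 * j ≤ Lam) :
    er h (fun s => xs h s ^ j) ≤ Lam ^ j := by
  rcases Nat.eq_zero_or_pos j with h0 | hj
  · subst h0
    simp only [pow_zero]
    rw [er_const hh]
  · set a : ℝ := D / 2 + j with ha
    have hj1 : (1 : ℝ) ≤ j := by exact_mod_cast hj
    have ha0 : 0 < a := by rw [ha]; linarith
    have hja : (j : ℝ) ≤ a := by rw [ha]; linarith
    have h1 : ∀ s, xs h s ^ j ≤ (8 * a) ^ j * (1 + Real.exp (-a) * Real.exp (xs h s / 8)) := by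
      intro s
      have h2 := pow_le_aux (y := xs h s / 8) (div_nonneg (xs_nonneg h s) (by norm_num)) ha0 hja
      have h3 : xs h s ^ j = 8 ^ j * (xs h s / 8) ^ j := by
        rw [← mul_pow]; congr 1; ring
      rw [h3, mul_pow, mul_assoc]
      apply mul_le_mul_of_nonneg_left _ (by positivity)
      rw [← Real.exp_add, show -a + xs h s / 8 = xs h s / 8 - a by ring]
      exact h2
    have h4 : er h (fun s => xs h s ^ j) ≤ (8 * a) ^ j * (1 + Real.exp (-a) * Real.exp (D / 2)) := by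
      calc _ ≤ er h (fun s => (8 * a) ^ j * (1 + Real.exp (-a) * Real.exp (xs h s / 8))) :=
            er_mono hh h1
        _ = (8 * a) ^ j * (1 + Real.exp (-a) * er h (fun s => Real.exp (xs h s / 8))) := by
            rw [er_mul_left, er_add, er_const hh, er_mul_left]
        _ ≤ _ := by
            gcongr
            exact er_exp_le hh hD
    refine h4.trans ?_
    have h5 : Real.exp (-a) * Real.exp (D / 2) ≤ 1 := by
      rw [← Real.exp_add]
      apply Real.exp_le_one_iff.mpr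
      rw [ha]; linarith
    have h6 : (8 * a) ^ j * (1 + Real.exp (-a) * Real.exp (D / 2)) ≤ (8 * a) ^ j * 2 := by
      gcongr
      linarith
    refine h6.trans ?_
    have h7 : (2 : ℝ) ≤ 2 ^ j := by
      calc (2 : ℝ) = 2 ^ 1 := (pow_one 2).symm
        _ ≤ 2 ^ j := pow_le_pow_right₀ (by norm_num) hj
    calc (8 * a) ^ j * 2 ≤ (8 * a) ^ j * 2 ^ j := by gcongr
      _ = (16 * a) ^ j := by rw [← mul_pow]; congr 1; ring
      _ ≤ Lam ^ j := by
        apply pow_le_pow_left₀ (by positivity)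
        rw [ha]; linarith

end Vale.Agent.P042.H947
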