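import Vale.Agent.P042.H947.CubeB

/-!
# P042, H2.3 (cube theorem), part C: the Hilbert-Schmidt half

`E_ρ (∑_G b_G ξ^G)^2 ≤ ∑ b_G^2`, Walsh orthonormality, and the decomposition of a homogeneous
polynomial by the number of noise legs.
-/

set_option autoImplicit false

namespace Vale.Agent.P042.H947

open Finset

variable {N : ℕ}

/-- the first `k` coordinates -/
def ini (k : ℕ) : Finset (Fin N) := univ.filter fun i => i.val < k

lemma mem_ini {k : ℕ} {i : Fin N} : i ∈ (ini k : Finset (Fin N)) ↔ i.val < k := by simp [ini]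

lemma ini_zero : (ini 0 : Finset (Fin N)) = ∅ := by
  ext i; simp [ini]

lemma ini_top : (ini N : Finset (Fin N)) = univ := by
  ext i; simp [ini]

lemma ini_succ {k : ℕ} (hk : k < N) :
    (ini (k + 1) : Finset (Fin N)) = insert ⟨k, hk⟩ (ini k) := by
  ext i
  simp only [mem_insert, mem_ini, Fin.ext_iff]
  omega

lemma not_mem_ini {k : ℕ} (hk : k < N) : (⟨k, hk⟩ : Fin N) ∉ (ini k : Finset (Fin N)) := by
  simp [mem_ini]

/-- the noise -/
def nz (h : Fin N → (Fin N → Bool) → ℝ) (i : Fin N) (s : Fin N → Bool) : ℝ :=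
  sg (s i) - h i s

lemma pre_nz {h : Fin N → (Fin N → Bool) → ℝ} (hh : Prd h) (i : Fin N) :
    Pre (i.val + 1) (nz h i) := by
  intro s t hst
  unfold nz
  rw [hst i (Nat.lt_succ_self _), hh.pre i s t fun j hj => hst j (by omega)]

/-- the noise polynomial -/
def np (h : Fin N → (Fin N → Bool) → ℝ) (k : ℕ) (b : Finset (Fin N) → ℝ)
    (s : Fin N → Bool) : ℝ :=
  ∑ G ∈ (ini k).powerset, b G * ∏ i ∈ G, nz h i s

lemma pre_np {h : Fin N → (Fin N → Bool) → ℝ} (hh : Prd h) (k : ℕ)
    (b : Finset (Fin N) → ℝ) : Pre k (np h k b) := by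
  intro s t hst
  unfold np
  refine sum_congr rfl fun G hG => ?_
  congr 1
  refine prod_congr rfl fun i hi => ?_
  have h1 : i.val < k := mem_ini.mp (mem_powerset.mp hG hi)
  exact pre_nz hh i s t fun j hj => hst j (by omega)

lemma np_succ (h : Fin N → (Fin N → Bool) → ℝ) {k : ℕ} (hk : k < N)
    (b : Finset (Fin N) → ℝ) (s : Fin N → Bool) :
    np h (k + 1) b s = np h k b s +
      nz h ⟨k, hk⟩ s * np h k (fun G => b (insert ⟨k, hk⟩ G)) s := by
  unfold np
  rw [ini_succ hk, sum_powerset_insert (not_mem_ini hk)]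
  congr 1
  rw [mul_sum]
  refine sum_congr rfl fun G hG => ?_
  have h1 : (⟨k, hk⟩ : Fin N) ∉ G := fun h => not_mem_ini hk (mem_powerset.mp hG h)
  rw [prod_insert h1]
  ring

theorem er_np_sq {h : Fin N → (Fin N → Bool) → ℝ} (hh : Prd h) :
    ∀ k, k ≤ N → ∀ b : Finset (Fin N) → ℝ,
      er h (fun s => np h k b s ^ 2) ≤ ∑ G ∈ (ini k).powerset, b G ^ 2 := by
  intro k
  induction k with
  | zero =>
    intro _ b
    have e1 : (fun s => np h 0 b s ^ 2) = fun _ => b ∅ ^ 2 := by
      funext s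
      unfold np
      rw [ini_zero]
      simp
    rw [e1, er_const hh, ini_zero]
    simp
  | succ k ih =>
    intro hk b
    have hk' : k < N := hk
    set b' : Finset (Fin N) → ℝ := fun G => b (insert ⟨k, hk'⟩ G) with hb'
    have e1 : (fun s => np h (k + 1) b s ^ 2) = fun s =>
        (np h k b s ^ 2 + (2 * np h k b s * np h k b' s) * (sg (s ⟨k, hk'⟩) - h ⟨k, hk'⟩ s)) +
          (np h k b' s ^ 2) * (sg (s ⟨k, hk'⟩) - h ⟨k, hk'⟩ s) ^ 2 := by
      funext s
      rw [np_succ h hk']
      unfold nz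
      ring
    rw [e1, er_add, er_add]
    have hp1 : Pre k (fun s => 2 * np h k b s * np h k b' s) := by
      intro s t hst
      show 2 * np h k b s * np h k b' s = 2 * np h k b t * np h k b' t
      rw [pre_np hh k b s t hst, pre_np hh k b' s t hst]
    have hp2 : Pre k (fun s => np h k b' s ^ 2) := by
      intro s t hst
      show np h k b' s ^ 2 = np h k b' t ^ 2
      rw [pre_np hh k b' s t hst]
    have h1 := er_mart hh ⟨k, hk'⟩ hp1
    have h2 := er_var hh ⟨k, hk'⟩ hp2 (fun s => sq_nonneg _)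
    rw [h1, ini_succ hk', sum_powerset_insert (not_mem_ini hk')]
    have h3 := ih hk'.le b
    have h4 := ih hk'.le b'
    linarith

/-- Walsh polynomials -/
def wp (k : ℕ) (b : Finset (Fin N) → ℝ) (s : Fin N → Bool) : ℝ :=
  ∑ G ∈ (ini k).powerset, b G * ∏ i ∈ G, sg (s i)

lemma pre_wp (k : ℕ) (b : Finset (Fin N) → ℝ) : Pre k (wp (N := N) k b) := by
  intro s t hst
  unfold wp
  refine sum_congr rfl fun G hG => ?_
  congr 1
  refine prod_congr rfl fun i hi => ?_
  have h1 : i.val < k := mem_ini.mp (mem_powerset.mp hG hi)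
  rw [hst i h1]

lemma wp_succ {k : ℕ} (hk : k < N) (b : Finset (Fin N) → ℝ) (s : Fin N → Bool) :
    wp (k + 1) b s = wp k b s + sg (s ⟨k, hk⟩) * wp k (fun G => b (insert ⟨k, hk⟩ G)) s := by
  unfold wp
  rw [ini_succ hk, sum_powerset_insert (not_mem_ini hk)]
  congr 1
  rw [mul_sum]
  refine sum_congr rfl fun G hG => ?_
  have h1 : (⟨k, hk⟩ : Fin N) ∉ G := fun h => not_mem_ini hk (mem_powerset.mp hG h)
  rw [prod_insert h1]
  ring

theorem av_wp_sq : ∀ k, k ≤ N → ∀ b : Finset (Fin N) → ℝ,
    av (fun s => wp k b s ^ 2) = ∑ G ∈ (ini k).powerset, b G ^ 2 := by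
  intro k
  induction k with
  | zero =>
    intro _ b
    have e1 : (fun s : Fin N → Bool => wp 0 b s ^ 2) = fun _ => b ∅ ^ 2 := by
      funext s
      unfold wp
      rw [ini_zero]
      simp
    rw [e1, av_const, ini_zero]
    simp
  | succ k ih =>
    intro hk b
    have hk' : k < N := hk
    set b' : Finset (Fin N) → ℝ := fun G => b (insert ⟨k, hk'⟩ G) with hb'
    have e1 : (fun s => wp (k + 1) b s ^ 2) = fun s =>
        (wp k b s + sg (s ⟨k, hk'⟩) * wp k b' s) ^ 2 := by
      funext s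
      rw [wp_succ hk']
    rw [e1, av_cond ⟨k, hk'⟩ (fun s c => (wp k b s + sg c * wp k b' s) ^ 2) (by
      intro s c
      have e1 := Pre.flp (k := ⟨k, hk'⟩) (pre_wp k b) s
      have e2 := Pre.flp (k := ⟨k, hk'⟩) (pre_wp k b') s
      simp only [e1, e2])]
    have e2 : (fun s => ((wp k b s + sg true * wp k b' s) ^ 2 +
        (wp k b s + sg false * wp k b' s) ^ 2) / 2) = fun s => wp k b s ^ 2 + wp k b' s ^ 2 := by
      funext s
      simp only [sg_true, sg_false]
      ring
    rw [e2, av_add, ih hk'.le, ih hk'.le, ini_succ hk', sum_powerset_insert (not_mem_ini hk')]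

/-! ### combinatorics -/

/-- pairs `G ⊆ F` as disjoint pairs `(G, F \ G)` -/
lemma sum_pairs {α : Type*} [DecidableEq α] [Fintype α] (m : ℕ) (f : Finset α → Finset α → ℝ) :
    ∑ F : Finset α, ∑ G ∈ F.powersetCard m, f G (F \ G) =
      ∑ H : Finset α, ∑ G ∈ (univ.powersetCard m).filter (fun G => Disjoint G H), f G H := by
  rw [sum_sigma', sum_sigma']
  refine sum_bij' (fun p _ => ⟨p.1 \ p.2, p.2⟩) (fun p _ => ⟨p.2 ∪ p.1, p.2⟩) ?_ ?_ ?_ ?_ ?_
  · rintro ⟨F, G⟩ hp
    simp only [mem_sigma, mem_univ, mem_powersetCard, true_and, mem_filter,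
      subset_univ] at hp ⊢
    exact ⟨hp.2, disjoint_sdiff⟩
  · rintro ⟨H, G⟩ hp
    simp only [mem_sigma, mem_univ, mem_powersetCard, true_and, mem_filter,
      subset_univ] at hp ⊢
    exact ⟨subset_union_left, hp.1⟩
  · rintro ⟨F, G⟩ hp
    simp only [mem_sigma, mem_univ, mem_powersetCard, true_and] at hp
    simp only [Sigma.mk.injEq, heq_eq_eq, and_true]
    exact union_sdiff_of_subset hp.1
  · rintro ⟨H, G⟩ hp
    simp only [mem_sigma, mem_univ, mem_powersetCard, true_and, mem_filter,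
      subset_univ] at hp
    simp only [Sigma.mk.injEq, heq_eq_eq, and_true]
    rw [union_sdiff_left]
    exact hp.2.symm.sdiff_eq_left
  · rintro ⟨F, G⟩ hp
    rfl

/-- elementary symmetric function -/
lemma esym_le {α : Type*} [DecidableEq α] (x : α → ℝ) (hx : ∀ a, 0 ≤ x a) (S : Finset α) :
    ∀ k : ℕ, ∑ H ∈ S.powersetCard k, ∏ i ∈ H, x i ≤ (∑ i ∈ S, x i) ^ k := by
  induction S using Finset.induction_on with
  | empty =>
    intro k
    rcases Nat.eq_zero_or_pos k with h | h
    · subst h; simp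
    · have : (∅ : Finset α).powersetCard k = ∅ := by
        apply powersetCard_eq_empty.mpr
        simpa using h
      rw [this]
      simp only [sum_empty]
      positivity
  | insert a S ha ih =>
    intro k
    rcases Nat.eq_zero_or_pos k with h | h
    · subst h; simp
    · obtain ⟨k, rfl⟩ : ∃ j, k = j + 1 := ⟨k - 1, by omega⟩
      rw [powersetCard_succ_insert ha, sum_union]
      · rw [sum_image]
        · have e1 : ∑ H ∈ S.powersetCard k, ∏ i ∈ insert a H, x i =
              x a * ∑ H ∈ S.powersetCard k, ∏ i ∈ H, x i := by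
            rw [mul_sum]
            refine sum_congr rfl fun H hH => ?_
            have : a ∉ H := fun h => ha ((mem_powersetCard.mp hH).1 h)
            rw [prod_insert this]
          rw [e1, sum_insert ha]
          have h1 := ih (k + 1)
          have h2 := ih k
          have h3 := hx a
          set σ := ∑ i ∈ S, x i
          have hσ : 0 ≤ σ := sum_nonneg fun i _ => hx i
          have h4 : σ ^ k ≤ (x a + σ) ^ k := pow_le_pow_left₀ hσ (by linarith) k
          calc _ ≤ σ ^ (k + 1) + x a * σ ^ k := by gcongr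
            _ = (x a + σ) * σ ^ k := by ring
            _ ≤ (x a + σ) * (x a + σ) ^ k := by gcongr
            _ = _ := by ring
        · intro H hH H' hH' he
          have h1 : a ∉ H := fun h => ha ((mem_powersetCard.mp hH).1 h)
          have h2 : a ∉ H' := fun h => ha ((mem_powersetCard.mp hH').1 h)
          rw [← erase_insert h1, ← erase_insert h2, he]
      · rw [disjoint_left]
        intro H hH hH'
        rw [mem_image] at hH'
        obtain ⟨H', hH', rfl⟩ := hH'
        exact ha ((mem_powersetCard.mp hH).1 (mem_insert_self a H'))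

/-- the part with `m` noise legs of `∑_F c_F ∏_{i ∈ F} (h_i + ξ_i)` -/
def ym (c : Finset (Fin N) → ℝ) (m : ℕ) (v u : Fin N → ℝ) : ℝ :=
  ∑ F, c F * ∑ G ∈ F.powersetCard m, (∏ i ∈ G, u i) * ∏ i ∈ F \ G, v i

lemma sum_ym (c : Finset (Fin N) → ℝ) {n : ℕ} (hc : ∀ F, F.card ≠ n → c F = 0)
    (v u : Fin N → ℝ) :
    ∑ F, c F * ∏ i ∈ F, (u i + v i) = ∑ m ∈ range (n + 1), ym c m v u := by
  unfold ym
  rw [sum_comm]
  refine sum_congr rfl fun F _ => ?_
  rw [← mul_sum]
  by_cases hF : F.card = n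
  · congr 1
    rw [prod_add, sum_powerset, hF]
  · rw [hc F hF]; simp

/-- HS half, pathwise -/
lemma ym_sq_le (c : Finset (Fin N) → ℝ) {n : ℕ} (hc : ∀ F, F.card ≠ n → c F = 0) {m : ℕ}
    (hm : m ≤ n) (v u : Fin N → ℝ) :
    ym c m v u ^ 2 ≤ (∑ i, v i ^ 2) ^ (n - m) *
      ∑ H : Finset (Fin N), (∑ G ∈ (univ.powersetCard m).filter (fun G => Disjoint G H),
        c (G ∪ H) * ∏ i ∈ G, u i) ^ 2 := by
  have e1 : ym c m v u = ∑ H ∈ univ.powersetCard (n - m), (∏ i ∈ H, v i) *
      ∑ G ∈ (univ.powersetCard m).filter (fun G => Disjoint G H),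
        c (G ∪ H) * ∏ i ∈ G, u i := by
    have e2 : ym c m v u = ∑ F, ∑ G ∈ F.powersetCard m,
        (fun G H => c (G ∪ H) * ((∏ i ∈ G, u i) * ∏ i ∈ H, v i)) G (F \ G) := by
      unfold ym
      refine sum_congr rfl fun F _ => ?_
      rw [mul_sum]
      refine sum_congr rfl fun G hG => ?_
      simp only
      rw [union_sdiff_of_subset (mem_powersetCard.mp hG).1]
    rw [e2, sum_pairs m (fun G H => c (G ∪ H) * ((∏ i ∈ G, u i) * ∏ i ∈ H, v i))]
    rw [← sum_subset (subset_univ (univ.powersetCard (n - m)))]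
    · refine sum_congr rfl fun H _ => ?_
      rw [mul_sum]
      refine sum_congr rfl fun G _ => ?_
      ring
    · intro H _ hH
      refine sum_eq_zero fun G hG => ?_
      simp only [mem_filter, mem_powersetCard, subset_univ, true_and] at hG hH
      rw [hc, zero_mul]
      rw [card_union_of_disjoint hG.2, hG.1]
      omega
  rw [e1]
  refine (sum_mul_sq_le_sq_mul_sq _ _ _).trans ?_
  apply mul_le_mul
  · have := esym_le (fun i => v i ^ 2) (fun i => sq_nonneg _) univ (n - m)
    simpa only [← prod_pow] using this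
  · exact sum_le_sum_of_subset_of_nonneg (subset_univ _) fun _ _ _ => sq_nonneg _
  · exact sum_nonneg fun _ _ => sq_nonneg _
  · exact pow_nonneg (sum_nonneg fun _ _ => sq_nonneg _) _

/-- the energy of the noise part -/
lemma er_noise {h : Fin N → (Fin N → Bool) → ℝ} (hh : Prd h) (c : Finset (Fin N) → ℝ) {n : ℕ}
    (hc : ∀ F, F.card ≠ n → c F = 0) (m : ℕ) :
    er h (fun s => ∑ H : Finset (Fin N),
      (∑ G ∈ (univ.powersetCard m).filter (fun G => Disjoint G H),
        c (G ∪ H) * ∏ i ∈ G, nz h i s) ^ 2) ≤ (n.choose m : ℝ) * ∑ F, c F ^ 2 := by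
  rw [er_sum]
  have h1 : ∀ H : Finset (Fin N), er h (fun s =>
      (∑ G ∈ (univ.powersetCard m).filter (fun G => Disjoint G H),
        c (G ∪ H) * ∏ i ∈ G, nz h i s) ^ 2) ≤
      ∑ G ∈ (univ.powersetCard m).filter (fun G => Disjoint G H), c (G ∪ H) ^ 2 := by
    intro H
    set b : Finset (Fin N) → ℝ := fun G =>
      if G ∈ (univ.powersetCard m).filter (fun G => Disjoint G H) then c (G ∪ H) else 0 with hb
    have h2 := er_np_sq hh N le_rfl b
    have e1 : ∀ s, np h N b s = ∑ G ∈ (univ.powersetCard m).filter (fun G => Disjoint G H),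
        c (G ∪ H) * ∏ i ∈ G, nz h i s := by
      intro s
      unfold np
      rw [ini_top, powerset_univ]
      rw [← sum_subset (subset_univ ((univ.powersetCard m).filter (fun G => Disjoint G H)))]
      · refine sum_congr rfl fun G hG => ?_
        rw [hb]; simp only; rw [if_pos hG]
      · intro G _ hG
        rw [hb]; simp only; rw [if_neg hG, zero_mul]
    have e2 : ∑ G ∈ (ini N).powerset, b G ^ 2 =
        ∑ G ∈ (univ.powersetCard m).filter (fun G => Disjoint G H), c (G ∪ H) ^ 2 := by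
      rw [ini_top, powerset_univ]
      rw [← sum_subset (subset_univ ((univ.powersetCard m).filter (fun G => Disjoint G H)))]
      · refine sum_congr rfl fun G hG => ?_
        rw [hb]; simp only; rw [if_pos hG]
      · intro G _ hG
        rw [hb]; simp only; rw [if_neg hG]; simp
    simp only [e1, e2] at h2
    exact h2
  refine (sum_le_sum fun H _ => h1 H).trans (le_of_eq ?_)
  rw [← sum_pairs m (fun G H => c (G ∪ H) ^ 2), mul_sum]
  refine sum_congr rfl fun F _ => ?_
  have e3 : ∀ G ∈ F.powersetCard m, (fun G H => c (G ∪ H) ^ 2) G (F \ G) = c F ^ 2 := by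
    intro G hG
    simp only
    rw [union_sdiff_of_subset (mem_powersetCard.mp hG).1]
  rw [sum_congr rfl e3, sum_const, card_powersetCard, nsmul_eq_mul]
  by_cases hF : F.card = n
  · rw [hF]
  · rw [hc F hF]; simp

end Vale.Agent.P042.H947
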