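import Vale.Agent.P042.H947.CubeC

/-!
# P042, H2.3 (cube theorem), part E: assembly
-/

set_option autoImplicit false

namespace Vale.Agent.P042.H947

open Finset

variable {N : ℕ}

lemma young_pow {y L : ℝ} (hy : 0 ≤ y) (hL : 0 ≤ L) {Q : ℕ} (hQ : 1 ≤ Q) :
    ((Q : ℝ) + 1) * (y ^ Q * L) ≤ Q * y ^ (Q + 1) + L ^ (Q + 1) := by
  rcases eq_or_lt_of_le hy with h | h
  · rw [← h, zero_pow (by omega), zero_pow (by omega)]
    have : 0 ≤ L ^ (Q + 1) := by positivity
    simpa using this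
  · have h1 : -2 ≤ L / y - 1 := by
      have : 0 ≤ L / y := by positivity
      linarith
    have h2 := one_add_mul_le_pow h1 (Q + 1)
    have h3 : (1 + (L / y - 1)) ^ (Q + 1) * y ^ (Q + 1) = L ^ (Q + 1) := by
      rw [← mul_pow]
      congr 1
      field_simp
      ring
    have h4 : (1 + ((Q + 1 : ℕ) : ℝ) * (L / y - 1)) * y ^ (Q + 1) ≤ L ^ (Q + 1) := by
      rw [← h3]
      exact mul_le_mul_of_nonneg_right h2 (by positivity)
    have h5 : (1 + ((Q + 1 : ℕ) : ℝ) * (L / y - 1)) * y ^ (Q + 1) =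
        ((Q : ℝ) + 1) * (y ^ Q * L) - Q * y ^ (Q + 1) := by
      push_cast
      rw [pow_succ]
      field_simp
      ring
    linarith

lemma av_pow_le (Z : (Fin N → Bool) → ℝ) (hZ : ∀ s, 0 ≤ Z s) (q : ℕ) :
    av Z ^ q ≤ av (fun s => Z s ^ q) := by
  have h := Real.pow_arith_mean_le_arith_mean_pow (univ : Finset (Fin N → Bool))
    (fun _ => (1 : ℝ) / 2 ^ N) Z (fun _ _ => by positivity) (by simp) (fun s _ => hZ s) q
  unfold av
  rw [sum_div, sum_div]
  calc (∑ i, Z i / 2 ^ N) ^ q = (∑ i, 1 / 2 ^ N * Z i) ^ q := by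
        congr 1; exact sum_congr rfl fun i _ => by ring
    _ ≤ ∑ i, 1 / 2 ^ N * Z i ^ q := h
    _ = _ := sum_congr rfl fun i _ => by ring

lemma er_sqrt_mul {h : Fin N → (Fin N → Bool) → ℝ} (hh : Prd h)
    {A B : (Fin N → Bool) → ℝ} (hA : ∀ s, 0 ≤ A s) (hB : ∀ s, 0 ≤ B s) :
    er h (fun s => Real.sqrt (A s) * Real.sqrt (B s)) ≤
      Real.sqrt (er h A) * Real.sqrt (er h B) := by
  have h1 := Real.sum_sqrt_mul_sqrt_le (univ : Finset (Fin N → Bool))
    (f := fun s => pk h N s / 2 ^ N * A s) (g := fun s => pk h N s / 2 ^ N * B s)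
    (fun s => mul_nonneg (div_nonneg (pk_nonneg hh N s) (by positivity)) (hA s))
    (fun s => mul_nonneg (div_nonneg (pk_nonneg hh N s) (by positivity)) (hB s))
  have e : ∀ F : (Fin N → Bool) → ℝ, er h F = ∑ s, pk h N s / 2 ^ N * F s := by
    intro F
    unfold er av
    rw [sum_div]
    exact sum_congr rfl fun s _ => by ring
  rw [e, e, e]
  refine le_trans (le_of_eq ?_) h1
  refine sum_congr rfl fun s _ => ?_
  have hw : 0 ≤ pk h N s / 2 ^ N := div_nonneg (pk_nonneg hh N s) (by positivity)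
  rw [Real.sqrt_mul hw, Real.sqrt_mul hw]
  have := Real.mul_self_sqrt hw
  calc _ = (Real.sqrt (pk h N s / 2 ^ N) * Real.sqrt (pk h N s / 2 ^ N)) *
        (Real.sqrt (A s) * Real.sqrt (B s)) := by rw [this]
    _ = _ := by ring

/-- the polynomial -/
def yc (c : Finset (Fin N) → ℝ) (s : Fin N → Bool) : ℝ := ∑ F, c F * ∏ i ∈ F, sg (s i)

lemma yc_eq_wp (c : Finset (Fin N) → ℝ) (s : Fin N → Bool) : yc c s = wp N c s := by
  unfold yc wp
  rw [ini_top, powerset_univ]

lemma av_yc_sq (c : Finset (Fin N) → ℝ) : av (fun s => yc c s ^ 2) = ∑ F, c F ^ 2 := by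
  simp only [yc_eq_wp]
  rw [av_wp_sq N le_rfl, ini_top, powerset_univ]

lemma yc_sq_le (c : Finset (Fin N) → ℝ) {n : ℕ} (hc : ∀ F, F.card ≠ n → c F = 0)
    (s : Fin N → Bool) : yc c s ^ 2 ≤ (N : ℝ) ^ n * ∑ F, c F ^ 2 := by
  have e1 : yc c s = ∑ F ∈ univ.powersetCard n, c F * ∏ i ∈ F, sg (s i) := by
    unfold yc
    rw [← sum_subset (subset_univ (univ.powersetCard n))]
    intro F _ hF
    rw [hc, zero_mul]
    intro h
    exact hF (mem_powersetCard.mpr ⟨subset_univ _, h⟩)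
  rw [e1]
  refine (sum_mul_sq_le_sq_mul_sq _ _ _).trans ?_
  rw [mul_comm]
  apply mul_le_mul
  · have h1 : ∀ F ∈ (univ : Finset (Fin N)).powersetCard n, (∏ i ∈ F, sg (s i)) ^ 2 = 1 := by
      intro F _
      rw [← prod_pow]
      exact prod_eq_one fun i _ => sg_sq _
    rw [sum_congr rfl h1, sum_const, card_powersetCard, card_univ, Fintype.card_fin, nsmul_eq_mul,
      mul_one]
    exact_mod_cast Nat.choose_le_pow N n
  · exact sum_le_sum_of_subset_of_nonneg (subset_univ _) fun _ _ _ => sq_nonneg _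
  · exact sum_nonneg fun _ _ => sq_nonneg _
  · positivity

lemma sum_nz_sq_le {h : Fin N → (Fin N → Bool) → ℝ} (hh : Prd h) (s : Fin N → Bool) :
    Real.sqrt (∑ i, nz h i s ^ 2) ≤ 2 * Real.sqrt N := by
  have h1 : ∑ i, nz h i s ^ 2 ≤ ∑ _i : Fin N, (4 : ℝ) := by
    refine sum_le_sum fun i _ => ?_
    have h2 : |nz h i s| ≤ 2 := by
      unfold nz
      calc |sg (s i) - h i s| ≤ |sg (s i)| + |h i s| := abs_sub _ _
        _ ≤ 1 + 1 := add_le_add (abs_sg _).le (hh.bd i s)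
        _ = 2 := by norm_num
    calc nz h i s ^ 2 = |nz h i s| ^ 2 := (sq_abs _).symm
      _ ≤ 2 ^ 2 := pow_le_pow_left₀ (abs_nonneg _) h2 2
      _ = 4 := by norm_num
  rw [sum_const, card_univ, Fintype.card_fin, nsmul_eq_mul] at h1
  calc Real.sqrt (∑ i, nz h i s ^ 2) ≤ Real.sqrt (N * 4) := Real.sqrt_le_sqrt h1
    _ = 2 * Real.sqrt N := by
      rw [Real.sqrt_mul (Nat.cast_nonneg N), show (4 : ℝ) = 2 ^ 2 by norm_num,
        Real.sqrt_sq (by norm_num)]
      ring

/-- **THE CUBE THEOREM** on `{-1,1}^N`, injective half as a hypothesis on `ym` -/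
theorem cube_fin (c : Finset (Fin N) → ℝ) {n : ℕ} (hc : ∀ F, F.card ≠ n → c F = 0)
    {Q : ℕ} (hQ : Even Q) (hQ2 : 2 ≤ Q) {L : ℝ} (hL0 : 0 ≤ L) (hL : (N : ℝ) ≤ Real.exp L)
    {X2 : ℝ} (hX0 : 0 ≤ X2) (hX : ∑ F, c F ^ 2 ≤ X2 ^ 2) {J : ℝ} (hJ0 : 0 ≤ J)
    (hJ : ∀ m ≤ n, ∀ v u : Fin N → ℝ, |ym c m v u| ≤
      J * 2 ^ n * Real.sqrt (∑ i, u i ^ 2) ^ m * Real.sqrt (∑ i, v i ^ 2) ^ (n - m))
    {Lam : ℝ} (hLam : 4 * Q * n * L + 16 * n ≤ Lam) :
    av (fun s => yc c s ^ Q) ≤
      (∑ m ∈ range (n + 1), min (Real.sqrt (n.choose m) * Real.sqrt (Lam ^ (n - m)) * X2)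
        (J * 2 ^ n * (2 * Real.sqrt N) ^ m * Real.sqrt (Lam ^ (n - m)))) ^ Q := by
  set S : ℝ := ∑ m ∈ range (n + 1), min (Real.sqrt (n.choose m) * Real.sqrt (Lam ^ (n - m)) * X2)
        (J * 2 ^ n * (2 * Real.sqrt N) ^ m * Real.sqrt (Lam ^ (n - m))) with hS
  have hLam0 : 0 ≤ Lam := le_trans (by positivity) hLam
  have hS0 : 0 ≤ S := by
    rw [hS]
    exact sum_nonneg fun m _ => le_min (by positivity) (by positivity)
  set M : ℝ := av (fun s => yc c s ^ Q) with hM
  have hYQ : ∀ s, 0 ≤ yc c s ^ Q := fun s => hQ.pow_nonneg _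
  have hM0 : 0 ≤ M := av_nonneg hYQ
  rcases eq_or_lt_of_le hM0 with hM1 | hM1
  · rw [← hM1]; exact pow_nonneg hS0 _
  obtain ⟨h, hh, hr⟩ := exists_prd (fun s => yc c s ^ Q / M) (fun s => div_nonneg (hYQ s) hM0) (by
    simp only [div_eq_mul_inv]
    rw [av_mul_right]
    exact mul_inv_cancel₀ hM1.ne')
  -- the density bound
  obtain ⟨q, hq⟩ := hQ
  have hq' : Q = 2 * q := by omega
  set σ : ℝ := ∑ F, c F ^ 2 with hσ
  have hσ0 : 0 ≤ σ := sum_nonneg fun _ _ => sq_nonneg _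
  have hMσ : σ ^ q ≤ M := by
    have h1 := av_pow_le (fun s => yc c s ^ 2) (fun s => sq_nonneg _) q
    rw [av_yc_sq] at h1
    refine h1.trans (le_of_eq ?_)
    rw [hM]
    congr 1
    funext s
    rw [← pow_mul, hq']
  set D : ℝ := q * (n * L) with hD
  have hD0 : 0 ≤ D := by rw [hD]; positivity
  have hdens : ∀ s, pk h N s ≤ Real.exp D := by
    intro s
    rw [← hr s, div_le_iff₀ hM1]
    have h1 : yc c s ^ Q = (yc c s ^ 2) ^ q := by rw [← pow_mul, hq']
    have h2 : (N : ℝ) ^ n ≤ Real.exp (n * L) := by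
      rw [Real.exp_nat_mul]
      exact pow_le_pow_left₀ (Nat.cast_nonneg N) hL n
    calc yc c s ^ Q = (yc c s ^ 2) ^ q := h1
      _ ≤ ((N : ℝ) ^ n * σ) ^ q := pow_le_pow_left₀ (sq_nonneg _) (yc_sq_le c hc s) q
      _ ≤ (Real.exp (n * L) * σ) ^ q := by gcongr
      _ = Real.exp D * σ ^ q := by rw [mul_pow, hD, ← Real.exp_nat_mul]
      _ ≤ Real.exp D * M := by gcongr
  -- moments of the drift
  have hmom : ∀ m, m ≤ n → er h (fun s => xs h s ^ (n - m)) ≤ Lam ^ (n - m) := by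
    intro m hm
    apply er_pow_le hh hD0 hdens
    refine le_trans ?_ hLam
    rw [hD, hq']
    have : ((n - m : ℕ) : ℝ) ≤ n := by exact_mod_cast Nat.sub_le n m
    push_cast
    nlinarith
  -- the expectation of |Y| under the tilted law
  set E1 : ℝ := er h (fun s => |yc c s|) with hE1
  have hE10 : 0 ≤ E1 := er_nonneg hh fun s => abs_nonneg _
  have hsum : ∀ s, yc c s = ∑ m ∈ range (n + 1), ym c m (fun i => h i s) (fun i => nz h i s) := by
    intro s
    rw [← sum_ym c hc]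
    unfold yc
    refine sum_congr rfl fun F _ => ?_
    congr 1
    refine prod_congr rfl fun i _ => ?_
    unfold nz
    ring
  have hE1S : E1 ≤ S := by
    have h1 : E1 ≤ ∑ m ∈ range (n + 1),
        er h (fun s => |ym c m (fun i => h i s) (fun i => nz h i s)|) := by
      rw [← er_sum]
      apply er_mono hh
      intro s
      rw [hsum s]
      exact abs_sum_le_sum_abs _ _
    refine h1.trans ?_
    rw [hS]
    refine sum_le_sum fun m hm => ?_
    have hmn : m ≤ n := by have := mem_range.mp hm; omega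
    have hsq : Real.sqrt (er h (fun s => xs h s ^ (n - m))) ≤ Real.sqrt (Lam ^ (n - m)) :=
      Real.sqrt_le_sqrt (hmom m hmn)
    refine le_min ?_ ?_
    · set Z : (Fin N → Bool) → ℝ := fun s => ∑ H : Finset (Fin N),
        (∑ G ∈ (univ.powersetCard m).filter (fun G => Disjoint G H),
          c (G ∪ H) * ∏ i ∈ G, nz h i s) ^ 2 with hZ
      have h2 : ∀ s, |ym c m (fun i => h i s) (fun i => nz h i s)| ≤
          Real.sqrt (xs h s ^ (n - m)) * Real.sqrt (Z s) := by
        intro s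
        rw [← Real.sqrt_mul (pow_nonneg (xs_nonneg h s) _), ← Real.sqrt_sq_eq_abs]
        apply Real.sqrt_le_sqrt
        exact ym_sq_le c hc hmn _ _
      calc er h (fun s => |ym c m (fun i => h i s) (fun i => nz h i s)|) ≤
          er h (fun s => Real.sqrt (xs h s ^ (n - m)) * Real.sqrt (Z s)) := er_mono hh h2
        _ ≤ Real.sqrt (er h (fun s => xs h s ^ (n - m))) * Real.sqrt (er h Z) :=
            er_sqrt_mul hh (fun s => pow_nonneg (xs_nonneg h s) _)
              (fun s => sum_nonneg fun _ _ => sq_nonneg _)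
        _ ≤ Real.sqrt (Lam ^ (n - m)) * (Real.sqrt (n.choose m) * X2) := by
            apply mul_le_mul hsq _ (Real.sqrt_nonneg _) (Real.sqrt_nonneg _)
            have h3 : er h Z ≤ (n.choose m : ℝ) * X2 ^ 2 := by
              refine (er_noise hh c hc m).trans ?_
              gcongr
            calc Real.sqrt (er h Z) ≤ Real.sqrt ((n.choose m : ℝ) * X2 ^ 2) :=
                  Real.sqrt_le_sqrt h3
              _ = Real.sqrt (n.choose m) * X2 := by
                  rw [Real.sqrt_mul (Nat.cast_nonneg _), Real.sqrt_sq hX0]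
        _ = Real.sqrt (n.choose m) * Real.sqrt (Lam ^ (n - m)) * X2 := by ring
    · have h2 : ∀ s, |ym c m (fun i => h i s) (fun i => nz h i s)| ≤
          (J * 2 ^ n * (2 * Real.sqrt N) ^ m) * (Real.sqrt (xs h s ^ (n - m)) *
            Real.sqrt 1) := by
        intro s
        refine (hJ m hmn _ _).trans ?_
        have h3 := sum_nz_sq_le hh s
        have h4 : Real.sqrt (∑ i, h i s ^ 2) ^ (n - m) = Real.sqrt (xs h s ^ (n - m)) := by
          rw [show (∑ i, h i s ^ 2) = xs h s from rfl]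
          rw [Real.sqrt_eq_rpow, Real.sqrt_eq_rpow, ← Real.rpow_natCast, ← Real.rpow_natCast,
            ← Real.rpow_mul (xs_nonneg h s), ← Real.rpow_mul (xs_nonneg h s)]
          congr 1
          ring
        rw [h4, Real.sqrt_one, mul_one]
        gcongr
      calc er h (fun s => |ym c m (fun i => h i s) (fun i => nz h i s)|) ≤
          er h (fun s => (J * 2 ^ n * (2 * Real.sqrt N) ^ m) *
            (Real.sqrt (xs h s ^ (n - m)) * Real.sqrt 1)) := er_mono hh h2
        _ = (J * 2 ^ n * (2 * Real.sqrt N) ^ m) *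
            er h (fun s => Real.sqrt (xs h s ^ (n - m)) * Real.sqrt 1) := er_mul_left _ _ _
        _ ≤ (J * 2 ^ n * (2 * Real.sqrt N) ^ m) *
            (Real.sqrt (er h (fun s => xs h s ^ (n - m))) * Real.sqrt (er h fun _ => 1)) := by
            gcongr
            exact er_sqrt_mul hh (fun s => pow_nonneg (xs_nonneg h s) _) (fun s => zero_le_one)
        _ ≤ (J * 2 ^ n * (2 * Real.sqrt N) ^ m) * Real.sqrt (Lam ^ (n - m)) := by
            rw [er_const hh, Real.sqrt_one, mul_one]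
            gcongr
  -- comparison of the moments
  have hME : av (fun s => |yc c s| ^ (Q + 1)) = M * E1 := by
    rw [hE1]
    unfold er
    rw [← av_mul_left]
    congr 1
    funext s
    rw [← hr s]
    have h1 : |yc c s| ^ (Q + 1) = yc c s ^ Q * |yc c s| := by
      rw [pow_succ, Even.pow_abs ⟨q, hq⟩]
    rw [h1]
    field_simp
  have hyoung : ∀ L' : ℝ, 0 ≤ L' → ((Q : ℝ) + 1) * (M * L') ≤ Q * (M * E1) + L' ^ (Q + 1) := by
    intro L' hL'
    have h1 : av (fun s => ((Q : ℝ) + 1) * (|yc c s| ^ Q * L')) ≤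
        av (fun s => Q * |yc c s| ^ (Q + 1) + L' ^ (Q + 1)) :=
      av_mono fun s => young_pow (abs_nonneg _) hL' (by omega)
    rw [av_mul_left, av_mul_right, av_add, av_mul_left, av_const, hME] at h1
    have h2 : av (fun s => |yc c s| ^ Q) = M := by
      rw [hM]; congr 1; funext s; exact Even.pow_abs ⟨q, hq⟩ _
    rw [h2] at h1
    exact h1
  have hfin : ∀ L' : ℝ, 0 < L' → E1 ≤ L' → M ≤ L' ^ Q := by
    intro L' hL' hE
    have h1 := hyoung L' hL'.le
    have h2 : M * E1 ≤ M * L' := mul_le_mul_of_nonneg_left hE hM0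
    have h3 : M * L' ≤ L' ^ Q * L' := by
      rw [← pow_succ]
      have hQ0 : (0 : ℝ) ≤ Q := Nat.cast_nonneg Q
      nlinarith
    exact le_of_mul_le_mul_right h3 hL'
  rcases eq_or_lt_of_le hS0 with h0 | h0
  · exfalso
    have hE0 : E1 ≤ 0 := by rw [h0]; exact hE1S
    set L' : ℝ := min 1 (M / 2) with hL'
    have h1 : 0 < L' := lt_min one_pos (by linarith)
    have h2 := hfin L' h1 (hE0.trans h1.le)
    have h3 : L' ^ Q ≤ L' := by
      calc L' ^ Q ≤ L' ^ 1 := pow_le_pow_of_le_one h1.le (min_le_left _ _) (by omega)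
        _ = L' := pow_one _
    have h4 : L' ≤ M / 2 := min_le_right _ _
    linarith
  · exact hfin S h0 hE1S

end Vale.Agent.P042.H947
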